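import Vale.Agent.P335.H586.Sharp

/-!
# P335: a degree vector with `2 ^ (n / 4)` realizations on which the switch chain is a walk on the
cube (helper882)

`xv` is a potential: pairs with positive sum are edges of every realization, pairs with negative
sum are edges of none, pairs with sum zero lie in one of the `n / 4` blocks of four vertices.
-/

set_option autoImplicit false

namespace Vale.Agent.P335.H882

open Finset Vale.Agent.P335 Vale.Agent.P335.H586

variable {n : ℕ}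

/-- the potential of a vertex -/
def xv (v : Fin n) : ℤ :=
  if v.val / 4 < n / 4 then
    (if v.val % 4 < 2 then ((n / 4 : ℕ) : ℤ) - ((v.val / 4 : ℕ) : ℤ)
      else ((v.val / 4 : ℕ) : ℤ) - ((n / 4 : ℕ) : ℤ))
  else -(((n / 4 : ℕ) : ℤ) + 1)

/-- the base graph -/
def B0 (n : ℕ) : SimpleGraph (Fin n) where
  Adj u v := u ≠ v ∧ (0 < xv u + xv v ∨ (xv u + xv v = 0 ∧ u.val % 2 = v.val % 2))
  symm := ⟨fun u v h => ⟨h.1.symm, by rw [add_comm (xv v)]; exact h.2.imp id fun h => ⟨h.1, h.2.symm⟩⟩⟩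
  loopless := ⟨fun u h => h.1 rfl⟩

theorem B0_adj (u v : Fin n) : (B0 n).Adj u v ↔
    u ≠ v ∧ (0 < xv u + xv v ∨ (xv u + xv v = 0 ∧ u.val % 2 = v.val % 2)) := Iff.rfl

/-- the degree vector -/
noncomputable def dd (n : ℕ) (v : Fin n) : ℕ := ((B0 n).neighborSet v).ncard

theorem B0_deg : HasDegrees (dd n) (B0 n) := fun _ => rfl

/-- pairs with sum zero -/
theorem free_iff (u v : Fin n) : xv u + xv v = 0 ↔
    u.val / 4 = v.val / 4 ∧ u.val / 4 < n / 4 ∧
      ((u.val % 4 < 2 ∧ 2 ≤ v.val % 4) ∨ (2 ≤ u.val % 4 ∧ v.val % 4 < 2)) := by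
  unfold xv
  split_ifs with h1 h2 h3 h4 h5 h6 h7 h8 <;> constructor <;> intro h <;> omega

/-- the vertex `r` of the block `j` -/
def bv (j : Fin (n / 4)) (r : Fin 4) : Fin n := ⟨4 * j.val + r.val, by omega⟩

theorem bv_div (j : Fin (n / 4)) (r : Fin 4) : (bv j r).val / 4 = j.val := by
  unfold bv; simp only; omega

theorem bv_mod (j : Fin (n / 4)) (r : Fin 4) : (bv j r).val % 4 = r.val := by
  unfold bv; simp only; omega

theorem bv_mod2 (j : Fin (n / 4)) (r : Fin 4) : (bv j r).val % 2 = r.val % 2 := by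
  unfold bv; simp only; omega

theorem bv_inj {i j : Fin (n / 4)} {r s : Fin 4} : bv i r = bv j s ↔ i = j ∧ r = s := by
  constructor
  · intro h
    have h1 := bv_div i r
    have h2 := bv_mod i r
    rw [h, bv_div] at h1
    rw [h, bv_mod] at h2
    exact ⟨Fin.ext h1.symm, Fin.ext h2.symm⟩
  · rintro ⟨rfl, rfl⟩; rfl

theorem eq_bv {v : Fin n} (h : v.val / 4 < n / 4) : v = bv ⟨v.val / 4, h⟩ ⟨v.val % 4, by omega⟩ := by
  apply Fin.ext
  unfold bv
  simp only
  omega

theorem bv_free (j : Fin (n / 4)) (r s : Fin 4) :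
    xv (bv j r) + xv (bv j s) = 0 ↔ ((r.val < 2 ∧ 2 ≤ s.val) ∨ (2 ≤ r.val ∧ s.val < 2)) := by
  rw [free_iff, bv_div, bv_div, bv_mod, bv_mod]
  have := j.2
  constructor
  · intro h; exact h.2.2
  · intro h; exact ⟨rfl, this, h⟩

section Real

variable {G : SimpleGraph (Fin n)}

open Classical in
/-- the adjacency matrix -/
noncomputable def am (G : SimpleGraph (Fin n)) (u v : Fin n) : ℤ := if G.Adj u v then 1 else 0

theorem am_symm (G : SimpleGraph (Fin n)) (u v : Fin n) : am G u v = am G v u := by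
  unfold am
  rw [G.adj_comm]

theorem am_one {u v : Fin n} : am G u v = 1 ↔ G.Adj u v := by
  unfold am
  split_ifs with h <;> simp [h]

theorem am_zero {u v : Fin n} : am G u v = 0 ↔ ¬ G.Adj u v := by
  unfold am
  split_ifs with h <;> simp [h]

theorem am_le (u v : Fin n) : 0 ≤ am G u v ∧ am G u v ≤ 1 := by
  unfold am
  split_ifs <;> omega

theorem sum_am {d : Fin n → ℕ} (hG : HasDegrees d G) (u : Fin n) : ∑ v, am G u v = d u := by
  classical
  rw [← hG u]
  unfold am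
  rw [Finset.sum_boole, Set.ncard_eq_toFinset_card']
  congr 2
  ext w
  simp

/-- the difference with the base graph -/
noncomputable def df (G : SimpleGraph (Fin n)) (u v : Fin n) : ℤ := am G u v - am (B0 n) u v

theorem df_symm (u v : Fin n) : df G u v = df G v u := by
  unfold df
  rw [am_symm G, am_symm (B0 n)]

theorem sum_df (hG : HasDegrees (dd n) G) (u : Fin n) : ∑ v, df G u v = 0 := by
  unfold df
  rw [Finset.sum_sub_distrib, sum_am hG, sum_am B0_deg, sub_self]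

theorem term_nonpos (u v : Fin n) : (xv u + xv v) * df G u v ≤ 0 := by
  by_cases huv : u = v
  · subst huv
    have h1 : am G u u = 0 := am_zero.2 G.irrefl
    have h2 : am (B0 n) u u = 0 := am_zero.2 (B0 n).irrefl
    unfold df
    rw [h1, h2]
    simp
  rcases lt_trichotomy (xv u + xv v) 0 with h | h | h
  · have h1 : am (B0 n) u v = 0 := by
      rw [am_zero, B0_adj]
      rintro ⟨_, h2 | h2⟩
      · omega
      · omega
    unfold df
    rw [h1, sub_zero]
    exact mul_nonpos_of_nonpos_of_nonneg h.le (am_le u v).1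
  · rw [h, zero_mul]
  · have h1 : am (B0 n) u v = 1 := by
      rw [am_one, B0_adj]
      exact ⟨huv, Or.inl h⟩
    unfold df
    rw [h1]
    have := (am_le (G := G) u v).2
    exact mul_nonpos_of_nonneg_of_nonpos h.le (by omega)

theorem sum_term (hG : HasDegrees (dd n) G) : ∑ u, ∑ v, (xv u + xv v) * df G u v = 0 := by
  have e1 : ∀ u v : Fin n, (xv u + xv v) * df G u v = xv u * df G u v + xv v * df G u v := by
    intro u v; ring
  simp_rw [e1, Finset.sum_add_distrib]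
  have e2 : ∑ u : Fin n, ∑ v, xv u * df G u v = 0 := by
    refine Finset.sum_eq_zero fun u _ => ?_
    rw [← Finset.mul_sum, sum_df hG, mul_zero]
  have e3 : ∑ u : Fin n, ∑ v, xv v * df G u v = 0 := by
    rw [Finset.sum_comm]
    refine Finset.sum_eq_zero fun v _ => ?_
    rw [← Finset.mul_sum]
    simp_rw [fun u => df_symm (G := G) u v]
    rw [sum_df hG, mul_zero]
  rw [e2, e3, add_zero]

/-- **forced pairs** -/
theorem forced (hG : HasDegrees (dd n) G) {u v : Fin n} (h : xv u + xv v ≠ 0) :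
    df G u v = 0 := by
  have h1 : ∀ u ∈ (univ : Finset (Fin n)), ∑ v, (xv u + xv v) * df G u v ≤ 0 :=
    fun u _ => Finset.sum_nonpos fun v _ => term_nonpos u v
  have h2 := (Finset.sum_eq_zero_iff_of_nonpos h1).1 (sum_term hG) u (Finset.mem_univ u)
  have h3 := (Finset.sum_eq_zero_iff_of_nonpos
    (fun v _ => term_nonpos (G := G) u v)).1 h2 v (Finset.mem_univ v)
  rcases mul_eq_zero.1 h3 with h4 | h4
  · exact absurd h4 h
  · exact h4

theorem forced_adj (hG : HasDegrees (dd n) G) {u v : Fin n} (h : xv u + xv v ≠ 0) :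
    G.Adj u v ↔ (B0 n).Adj u v := by
  have h1 := forced hG h
  unfold df at h1
  rw [← am_one, ← am_one (G := B0 n)]
  constructor <;> intro h2 <;> omega

/-- two free neighbours -/
theorem two_free (hG : HasDegrees (dd n) G) (j : Fin (n / 4)) {r p q : Fin 4} (hpq : p ≠ q)
    (h : ∀ s : Fin 4, s ≠ p → s ≠ q → ¬ ((r.val < 2 ∧ 2 ≤ s.val) ∨ (2 ≤ r.val ∧ s.val < 2))) :
    df G (bv j r) (bv j p) + df G (bv j r) (bv j q) = 0 := by
  rw [← sum_df hG (bv j r)]
  symm
  apply Fintype.sum_eq_add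
  · rw [Ne, bv_inj]
    exact fun h => hpq h.2
  · intro v hv
    apply forced hG
    intro h0
    have h1 := (free_iff _ _).1 h0
    have h2 : v.val / 4 < n / 4 := h1.1 ▸ h1.2.1
    have h3 := eq_bv h2
    have h4 : (⟨v.val / 4, h2⟩ : Fin (n / 4)) = j := by
      apply Fin.ext
      simp only
      rw [← h1.1, bv_div]
    rw [h4] at h3
    obtain ⟨s, hs⟩ : ∃ s : Fin 4, v = bv j s := ⟨_, h3⟩
    rw [hs] at hv h0
    rw [bv_free] at h0
    exact h s (fun hsp => hv.1 (by rw [hsp])) (fun hsq => hv.2 (by rw [hsq])) h0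

/-- the structure of a block -/
theorem block (hG : HasDegrees (dd n) G) (j : Fin (n / 4)) :
    (G.Adj (bv j 0) (bv j 3) ↔ ¬ G.Adj (bv j 0) (bv j 2)) ∧
    (G.Adj (bv j 1) (bv j 2) ↔ ¬ G.Adj (bv j 0) (bv j 2)) ∧
    (G.Adj (bv j 1) (bv j 3) ↔ G.Adj (bv j 0) (bv j 2)) := by
  have e0 := two_free hG j (r := 0) (p := 2) (q := 3) (by decide) (by decide)
  have e1 := two_free hG j (r := 1) (p := 2) (q := 3) (by decide) (by decide)
  have e2 := two_free hG j (r := 2) (p := 0) (q := 1) (by decide) (by decide)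
  have b : ∀ r s : Fin 4, ((r.val < 2 ∧ 2 ≤ s.val) ∨ (2 ≤ r.val ∧ s.val < 2)) →
      (am (B0 n) (bv j r) (bv j s) = if r.val % 2 = s.val % 2 then 1 else 0) := by
    intro r s hrs
    have h1 := (bv_free j r s).2 hrs
    have h2 : bv j r ≠ bv j s := by
      rw [Ne, bv_inj]
      rintro ⟨_, rfl⟩
      omega
    split_ifs with hp
    · rw [am_one, B0_adj]
      exact ⟨h2, Or.inr ⟨h1, by rw [bv_mod2, bv_mod2]; exact hp⟩⟩
    · rw [am_zero, B0_adj]
      rintro ⟨_, h3 | h3⟩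
      · omega
      · rw [bv_mod2, bv_mod2] at h3
        exact hp h3.2
  have b02 := b 0 2 (by decide)
  have b03 := b 0 3 (by decide)
  have b12 := b 1 2 (by decide)
  have b13 := b 1 3 (by decide)
  have b20 := b 2 0 (by decide)
  have b21 := b 2 1 (by decide)
  rw [if_pos (by decide)] at b02 b13 b20
  rw [if_neg (by decide)] at b03 b12 b21
  unfold df at e0 e1 e2
  rw [b02, b03] at e0
  rw [b12, b13] at e1
  rw [b20, b21, am_symm G (bv j 2) (bv j 0), am_symm G (bv j 2) (bv j 1)] at e2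
  refine ⟨?_, ?_, ?_⟩
  · rw [← am_one, ← am_zero]; omega
  · rw [← am_one, ← am_zero]; omega
  · rw [← am_one, ← am_one]; omega

/-- adjacency of the free pairs -/
theorem free_adj (hG : HasDegrees (dd n) G) (j : Fin (n / 4)) {r s : Fin 4}
    (h : (r.val < 2 ∧ 2 ≤ s.val) ∨ (2 ≤ r.val ∧ s.val < 2)) :
    G.Adj (bv j r) (bv j s) ↔ (r.val % 2 = s.val % 2 ↔ G.Adj (bv j 0) (bv j 2)) := by
  obtain ⟨h1, h2, h3⟩ := block hG j
  have key : ∀ r s : Fin 4, ((r.val < 2 ∧ 2 ≤ s.val) ∨ (2 ≤ r.val ∧ s.val < 2)) →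
      (r = 0 ∧ s = 2) ∨ (r = 0 ∧ s = 3) ∨ (r = 1 ∧ s = 2) ∨ (r = 1 ∧ s = 3) ∨
      (r = 2 ∧ s = 0) ∨ (r = 3 ∧ s = 0) ∨ (r = 2 ∧ s = 1) ∨ (r = 3 ∧ s = 1) := by
    decide
  rcases key r s h with ⟨rfl, rfl⟩ | ⟨rfl, rfl⟩ | ⟨rfl, rfl⟩ | ⟨rfl, rfl⟩ | ⟨rfl, rfl⟩ |
    ⟨rfl, rfl⟩ | ⟨rfl, rfl⟩ | ⟨rfl, rfl⟩
  · simp
  · rw [h1]; simp
  · rw [h2]; simp
  · rw [h3]; simp
  · rw [G.adj_comm]; simp
  · rw [G.adj_comm, h1]; simp
  · rw [G.adj_comm, h2]; simp
  · rw [G.adj_comm, h3]; simp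

end Real

/-- the state of the block `j` -/
noncomputable def Ph (G : Realization (dd n)) (j : Fin (n / 4)) : Bool :=
  @decide (G.1.Adj (bv j 0) (bv j 2)) (Classical.dec _)

theorem Ph_true {G : Realization (dd n)} {j : Fin (n / 4)} :
    Ph G j = true ↔ G.1.Adj (bv j 0) (bv j 2) := by
  unfold Ph
  exact @decide_eq_true_iff _ (Classical.dec _)

theorem Ph_false {G : Realization (dd n)} {j : Fin (n / 4)} :
    Ph G j = false ↔ ¬ G.1.Adj (bv j 0) (bv j 2) := by
  rw [← Ph_true]; simp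

theorem free_exists {u v : Fin n} (h0 : xv u + xv v = 0) :
    ∃ (j : Fin (n / 4)) (r s : Fin 4), u = bv j r ∧ v = bv j s ∧
      ((r.val < 2 ∧ 2 ≤ s.val) ∨ (2 ≤ r.val ∧ s.val < 2)) := by
  have h1 := (free_iff _ _).1 h0
  have h2 : v.val / 4 < n / 4 := h1.1 ▸ h1.2.1
  have h3 := eq_bv h1.2.1
  have h4 := eq_bv h2
  have h5 : (⟨v.val / 4, h2⟩ : Fin (n / 4)) = ⟨u.val / 4, h1.2.1⟩ := Fin.ext h1.1.symm
  rw [h5] at h4
  exact ⟨_, _, _, h3, h4, h1.2.2⟩

theorem Ph_inj : Function.Injective (Ph (n := n)) := by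
  intro G H h
  apply Subtype.ext
  ext u v
  by_cases h0 : xv u + xv v = 0
  · obtain ⟨j, r, s, rfl, rfl, h6⟩ := free_exists h0
    rw [free_adj G.2 _ h6, free_adj H.2 _ h6]
    have h7 := congrFun h j
    have h8 : G.1.Adj (bv j 0) (bv j 2) ↔ H.1.Adj (bv j 0) (bv j 2) := by
      rw [← Ph_true, ← Ph_true, h7]
    rw [h8]
  · rw [forced_adj G.2 h0, forced_adj H.2 h0]

end Vale.Agent.P335.H882
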