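import Vale.Agent.P335.H882.Walk

/-!
# P335: a lower bound `n ^ 4 * log n` for the mixing time (helper882)
-/

set_option autoImplicit false

namespace Vale.Agent.P335.H882

open Finset Vale.Agent.P335 Vale.Agent.P335.H586

variable {n : ℕ}

/-- the sign of a block -/
noncomputable def eps (G : Realization (dd n)) (j : Fin (n / 4)) : ℝ :=
  if Ph G j = true then 1 else -1

theorem eps_flip (G : Realization (dd n)) (j i : Fin (n / 4)) :
    eps (flip G j) i = if i = j then - eps G i else eps G i := by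
  unfold eps
  rw [flip_Ph]
  by_cases hij : i = j
  · subst hij
    cases Ph G i <;> simp
  · simp [hij]

theorem eps_sq (G : Realization (dd n)) (i : Fin (n / 4)) : eps G i * eps G i = 1 := by
  unfold eps
  split_ifs <;> norm_num

/-- the magnetization -/
noncomputable def F1 (G : Realization (dd n)) : ℝ := ∑ i, eps G i

theorem F1_flip (G : Realization (dd n)) (j : Fin (n / 4)) :
    F1 (flip G j) = F1 G - 2 * eps G j := by
  unfold F1
  simp_rw [eps_flip]
  have h1 : ∀ i, (if i = j then - eps G i else eps G i) =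
      eps G i - (if i = j then 2 * eps G i else 0) := by
    intro i
    split_ifs <;> ring
  simp_rw [h1]
  rw [Finset.sum_sub_distrib, Finset.sum_ite_eq' univ j, if_pos (mem_univ _)]

open Classical in
theorem step1 (hn : 4 ≤ n) (G : Realization (dd n)) :
    ∑ H, switchChain (dd n) G H * F1 H = (1 - 1 / (6 * (n.choose 4 : ℝ))) * F1 G := by
  have hC : (0 : ℝ) < (n.choose 4 : ℝ) := by exact_mod_cast Nat.choose_pos hn
  rw [walk hn]
  have h1 : ∀ j, F1 (flip G j) - F1 G = -2 * eps G j := by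
    intro j; rw [F1_flip]; ring
  simp_rw [h1]
  rw [← Finset.mul_sum]
  show F1 G + 1 / (12 * (n.choose 4 : ℝ)) * (-2 * F1 G) = _
  field_simp
  ring

open Classical in
theorem step2 (hn : 4 ≤ n) (G : Realization (dd n)) :
    ∑ H, switchChain (dd n) G H * (F1 H ^ 2 - ((n / 4 : ℕ) : ℝ)) =
      (1 - 2 / (6 * (n.choose 4 : ℝ))) * (F1 G ^ 2 - ((n / 4 : ℕ) : ℝ)) := by
  have hC : (0 : ℝ) < (n.choose 4 : ℝ) := by exact_mod_cast Nat.choose_pos hn
  rw [walk hn G (fun H => F1 H ^ 2 - ((n / 4 : ℕ) : ℝ))]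
  have h1 : ∀ j, (F1 (flip G j) ^ 2 - ((n / 4 : ℕ) : ℝ)) - (F1 G ^ 2 - ((n / 4 : ℕ) : ℝ)) =
      -4 * F1 G * eps G j + 4 := by
    intro j
    rw [F1_flip]
    have := eps_sq G j
    linear_combination 4 * this
  simp_rw [h1]
  rw [Finset.sum_add_distrib, ← Finset.mul_sum, Finset.sum_const, Finset.card_univ,
    Fintype.card_fin, nsmul_eq_mul]
  show F1 G ^ 2 - ((n / 4 : ℕ) : ℝ) + 1 / (12 * (n.choose 4 : ℝ)) *
    (-4 * F1 G * F1 G + ((n / 4 : ℕ) : ℝ) * 4) = _
  field_simp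
  ring

open Classical in
theorem pow_lin {d : Fin n → ℕ} {l : ℝ} {f : Realization d → ℝ}
    (hf : ∀ G, ∑ H, switchChain d G H * f H = l * f G) (t : ℕ)
    (G : Realization d) : ∑ H, (switchChain d ^ t) G H * f H = l ^ t * f G := by
  induction t generalizing G with
  | zero => simp [Matrix.one_apply]
  | succ t ih =>
    have e : ∀ H, (switchChain d ^ (t + 1)) G H * f H =
        ∑ K, switchChain d G K * ((switchChain d ^ t) K H * f H) := by
      intro H
      rw [pow_succ', Matrix.mul_apply, Finset.sum_mul]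
      exact Finset.sum_congr rfl fun K _ => by ring
    simp_rw [e]
    rw [Finset.sum_comm]
    simp_rw [← Finset.mul_sum, ih]
    have e2 : ∀ K, switchChain d G K * (l ^ t * f K) = l ^ t * (switchChain d G K * f K) := by
      intro K; ring
    simp_rw [e2]
    rw [← Finset.mul_sum, hf G]
    ring

open Classical in
theorem pow_nonneg' (d : Fin n → ℕ) (t : ℕ) (G H : Realization d) :
    0 ≤ (switchChain d ^ t) G H := by
  induction t generalizing G with
  | zero =>
    rw [pow_zero, Matrix.one_apply]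
    split_ifs <;> norm_num
  | succ t ih =>
    rw [pow_succ', Matrix.mul_apply]
    exact Finset.sum_nonneg fun K _ => mul_nonneg (chain_nonneg d G K) (ih K)

open Classical in
theorem mean_zero (hn : 4 ≤ n) {d : Fin n → ℕ} [Nonempty (Realization d)] {l : ℝ}
    {f : Realization d → ℝ} (hf : ∀ G, ∑ H, switchChain d G H * f H = l * f G) (hl : l ≠ 1) :
    ∑ G, f G = 0 := by
  have h1 := (lazy_switch hn d).sum_P f
  simp_rw [hf] at h1
  rw [← Finset.mul_sum] at h1
  have h2 : (l - 1) * ∑ G, f G = 0 := by linear_combination h1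
  rcases mul_eq_zero.1 h2 with h3 | h3
  · exact absurd (by linarith) hl
  · exact h3

/-- the top state -/
def top (n : ℕ) : Realization (dd n) := ⟨B0 n, B0_deg⟩

theorem F1_top : F1 (top n) = ((n / 4 : ℕ) : ℝ) := by
  unfold F1
  have h1 : ∀ j, eps (top n) j = 1 := by
    intro j
    unfold eps
    rw [if_pos]
    rw [Ph_true]
    show (B0 n).Adj _ _
    rw [B0_adj]
    refine ⟨bv_ne j (by decide), Or.inr ⟨(bv_free j 0 2).2 (by decide), ?_⟩⟩
    rw [bv_mod2, bv_mod2]
    decide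
  simp_rw [h1]
  simp

open Classical in
theorem low (hn : 4 ≤ n) (t : ℕ) (h : MixedBy (dd n) t) :
    ((n / 4 : ℕ) : ℝ) * (1 - 1 / (6 * (n.choose 4 : ℝ))) ^ (2 * t) ≤ 2 := by
  have hC : (1 : ℝ) ≤ (n.choose 4 : ℝ) := by exact_mod_cast Nat.choose_pos hn
  have hk : (1 : ℝ) ≤ ((n / 4 : ℕ) : ℝ) := by
    have : 1 ≤ n / 4 := by omega
    exact_mod_cast this
  have hne : Nonempty (Realization (dd n)) := ⟨top n⟩
  have hg0 : 0 < 1 / (6 * (n.choose 4 : ℝ)) := by positivity
  have hg1 : 1 / (6 * (n.choose 4 : ℝ)) ≤ 1 / 6 := by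
    apply one_div_le_one_div_of_le (by norm_num)
    linarith
  have h2g : 2 / (6 * (n.choose 4 : ℝ)) = 2 * (1 / (6 * (n.choose 4 : ℝ))) := by ring
  have s2 := step2 hn
  rw [h2g] at s2
  have s1 := step1 hn
  generalize 1 / (6 * (n.choose 4 : ℝ)) = g at hg0 hg1 s1 s2 ⊢
  generalize hk' : ((n / 4 : ℕ) : ℝ) = k at hk s2 ⊢
  have z1 := mean_zero hn s1 (by linarith)
  have z2 := mean_zero hn (f := fun G => F1 G ^ 2 - k) s2 (by linarith)
  have p1 := pow_lin s1 t (top n)
  have p2 := pow_lin (f := fun G => F1 G ^ 2 - k) s2 t (top n)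
  have p0 := pow_lin (d := dd n) (l := 1) (f := fun _ => 1)
    (fun G => by simp_rw [mul_one]; exact (lazy_switch hn (dd n)).P1 G) t (top n)
  simp only [F1_top, hk', one_pow, mul_one] at p0 p1 p2
  have hm := h (top n)
  set N : ℝ := (Fintype.card (Realization (dd n)) : ℝ) with hN
  have hN0 : 0 < N := by rw [hN]; exact_mod_cast Fintype.card_pos
  set D : Realization (dd n) → ℝ := fun H => (switchChain (dd n) ^ t) (top n) H - 1 / N with hD
  have e1 : ∑ H, D H * F1 H = (1 - g) ^ t * k := by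
    simp_rw [hD, sub_mul]
    rw [Finset.sum_sub_distrib, p1, ← Finset.mul_sum, z1]
    ring
  have cs : (∑ H, D H * F1 H) ^ 2 ≤ (∑ H, |D H|) * ∑ H, |D H| * F1 H ^ 2 := by
    apply Finset.sum_sq_le_sum_mul_sum_of_sq_le_mul
    · intro H _; exact abs_nonneg _
    · intro H _; exact mul_nonneg (abs_nonneg _) (sq_nonneg _)
    · intro H _
      rw [mul_pow, ← sq_abs (D H)]
      exact le_of_eq (by ring)
  have e2 : ∑ H, |D H| * F1 H ^ 2 ≤ 2 * k + (1 - 2 * g) ^ t * (k ^ 2 - k) := by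
    have q1 : ∀ H, |D H| * F1 H ^ 2 ≤
        (switchChain (dd n) ^ t) (top n) H * (F1 H ^ 2 - k) +
          k * (switchChain (dd n) ^ t) (top n) H + (1 / N * (F1 H ^ 2 - k) + 1 / N * k) := by
      intro H
      have q2 : |D H| ≤ (switchChain (dd n) ^ t) (top n) H + 1 / N := by
        rw [hD]
        refine (abs_sub _ _).trans (le_of_eq ?_)
        rw [abs_of_nonneg (pow_nonneg' _ _ _ _), abs_of_nonneg (by positivity)]
      have q3 := mul_le_mul_of_nonneg_right q2 (sq_nonneg (F1 H))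
      refine q3.trans (le_of_eq ?_)
      ring
    refine (Finset.sum_le_sum fun H _ => q1 H).trans (le_of_eq ?_)
    rw [Finset.sum_add_distrib, Finset.sum_add_distrib, Finset.sum_add_distrib, p2,
      ← Finset.mul_sum, p0, ← Finset.mul_sum, z2, Finset.sum_const, Finset.card_univ,
      nsmul_eq_mul, ← hN]
    field_simp
    ring
  have e3 : ∑ H, |D H| ≤ 1 / 2 := by linarith only [hm]
  have e4 : (1 - 2 * g) ^ t ≤ ((1 - g) ^ t) ^ 2 := by
    rw [← pow_mul, mul_comm t 2, pow_mul]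
    apply pow_le_pow_left₀ (by linarith)
    nlinarith only [sq_nonneg g]
  have e5 : 0 ≤ ∑ H, |D H| * F1 H ^ 2 :=
    Finset.sum_nonneg fun H _ => mul_nonneg (abs_nonneg _) (sq_nonneg _)
  have e6 : ((1 - g) ^ t * k) ^ 2 ≤ 1 / 2 * (2 * k + (1 - 2 * g) ^ t * (k ^ 2 - k)) := by
    rw [← e1]
    exact cs.trans (mul_le_mul e3 e2 e5 (by norm_num))
  have hkk : 0 ≤ k ^ 2 - k := by nlinarith only [hk]
  have e7 : ((1 - g) ^ t * k) ^ 2 ≤ 1 / 2 * (2 * k + ((1 - g) ^ t) ^ 2 * (k ^ 2 - k)) :=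
    e6.trans (by
      have := mul_le_mul_of_nonneg_right e4 hkk
      linarith only [this])
  rw [mul_comm 2 t, pow_mul]
  generalize ((1 - g) ^ t) = a at e7 ⊢
  have e8 : k * (k * a ^ 2) ≤ k * 2 := by nlinarith only [e7, mul_nonneg (sq_nonneg a) hkk, sq_nonneg a, hk, mul_nonneg (sq_nonneg a) (by linarith : 0 ≤ k)]
  exact le_of_mul_le_mul_left e8 (by linarith)

/-- from a power to the logarithm -/
theorem log_low {k g : ℝ} (hk : 1 ≤ k) (hg0 : 0 < g) (hg1 : g ≤ 1 / 6) (t : ℕ)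
    (h : k * (1 - g) ^ (2 * t) ≤ 2) : Real.log (k / 2) ≤ 12 / 5 * g * t := by
  have h1 : (0 : ℝ) < 1 - g := by linarith
  have h2 : Real.log (k * (1 - g) ^ (2 * t)) ≤ Real.log 2 :=
    Real.log_le_log (by positivity) h
  rw [Real.log_mul (by positivity) (by positivity), Real.log_pow] at h2
  have h3 : 1 - (1 - g)⁻¹ ≤ Real.log (1 - g) := Real.one_sub_inv_le_log_of_pos h1
  have h4 : -(6 / 5 * g) ≤ 1 - (1 - g)⁻¹ := by
    have e : 1 - (1 - g)⁻¹ = - (g / (1 - g)) := by
      field_simp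
      ring
    rw [e]
    apply neg_le_neg
    rw [div_le_iff₀ h1]
    nlinarith only [hg0, hg1]
  rw [Real.log_div (by positivity) (by norm_num)]
  have h5 : (0 : ℝ) ≤ (t : ℝ) := Nat.cast_nonneg t
  have h6 := mul_le_mul_of_nonneg_left (h4.trans h3) h5
  push_cast at h2
  linarith only [h2, h6]

theorem low_big (hn : 256 ≤ n) (t : ℕ) (h : MixedBy (dd n) t) :
    (n.choose 4 : ℝ) * Real.log n ≤ 2 * t := by
  have hn4 : 4 ≤ n := by omega
  have hC : (1 : ℝ) ≤ (n.choose 4 : ℝ) := by exact_mod_cast Nat.choose_pos hn4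
  have hg0 : 0 < 1 / (6 * (n.choose 4 : ℝ)) := by positivity
  have hg1 : 1 / (6 * (n.choose 4 : ℝ)) ≤ 1 / 6 := by
    apply one_div_le_one_div_of_le (by norm_num)
    linarith
  have hk0 : 1 ≤ n / 4 := by omega
  have hk : (1 : ℝ) ≤ ((n / 4 : ℕ) : ℝ) := by exact_mod_cast hk0
  have h1 := log_low hk hg0 hg1 t (low hn4 t h)
  have hnr : (256 : ℝ) ≤ n := by exact_mod_cast hn
  have h2 : (n : ℝ) / 16 ≤ ((n / 4 : ℕ) : ℝ) / 2 := by
    have h3 : n ≤ 8 * (n / 4) := by omega
    have h4 : (n : ℝ) ≤ 8 * ((n / 4 : ℕ) : ℝ) := by exact_mod_cast h3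
    linarith only [h4]
  have h3 : Real.log ((n : ℝ) / 16) ≤ Real.log (((n / 4 : ℕ) : ℝ) / 2) :=
    Real.log_le_log (by positivity) h2
  have h4 : Real.log n ≤ 2 * Real.log ((n : ℝ) / 16) := by
    have e : (2 : ℝ) * Real.log ((n : ℝ) / 16) = Real.log (((n : ℝ) / 16) ^ 2) := by
      rw [Real.log_pow]; push_cast; ring
    rw [e]
    apply Real.log_le_log (by positivity)
    nlinarith only [hnr]
  have h5 : Real.log n ≤ 24 / 5 * (1 / (6 * (n.choose 4 : ℝ))) * t := by
    linarith only [h1, h3, h4]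
  have hC0 : (0 : ℝ) < (n.choose 4 : ℝ) := by linarith
  have h6 := mul_le_mul_of_nonneg_left h5 hC0.le
  have h7 : (n.choose 4 : ℝ) * (24 / 5 * (1 / (6 * (n.choose 4 : ℝ))) * t) = 4 / 5 * t := by
    field_simp
    ring
  rw [h7] at h6
  have h8 : (0 : ℝ) ≤ (t : ℝ) := Nat.cast_nonneg t
  linarith only [h6, h8]

theorem dd_graphical (n : ℕ) : Graphical (dd n) := ⟨B0 n, B0_deg⟩

theorem mixed_tmix (hn : 4 ≤ n) {d : Fin n → ℕ} (hd : Graphical d) : MixedBy d (tmix d) :=
  (final_of_half (fun _ _ d _ => poincare_half d) n hn d hd).1.1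

/-- **the lower bound** -/
theorem lower (hn : 4 ≤ n) : ∃ d : Fin n → ℕ, Graphical d ∧
    (n.choose 4 : ℝ) * Real.log n ≤ 2 * (tmix d : ℝ) := by
  by_cases h : 256 ≤ n
  · exact ⟨dd n, dd_graphical n, low_big h _ (mixed_tmix hn (dd_graphical n))⟩
  · have hg : Graphical (d0 n) := ⟨G1 hn, G1_deg hn⟩
    refine ⟨d0 n, hg, ?_⟩
    have h1 := mix_lower hn _ (mixed_tmix hn hg)
    have h2 : 3 * (n.choose 4 : ℝ) ≤ (tmix (d0 n) : ℝ) := by exact_mod_cast h1
    have h3 : Real.log n ≤ 6 := by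
      have h4 : (n : ℝ) ≤ 256 := by exact_mod_cast (by omega : n ≤ 256)
      have h5 : (0 : ℝ) < n := by exact_mod_cast (by omega : 0 < n)
      have h6 : Real.log n ≤ Real.log 256 := Real.log_le_log h5 h4
      have h7 : Real.log 256 = 8 * Real.log 2 := by
        rw [show (256 : ℝ) = 2 ^ 8 by norm_num, Real.log_pow]; norm_num
      have h8 := Real.log_two_lt_d9
      linarith only [h6, h7, h8]
    have hC0 : (0 : ℝ) ≤ (n.choose 4 : ℝ) := Nat.cast_nonneg _
    have h9 := mul_le_mul_of_nonneg_left h3 hC0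
    linarith only [h2, h9]

/-- the degree of a polynomial bound -/
theorem degree_low (p : Polynomial ℝ) (h : ∀ n : ℕ, 4 ≤ n → ∀ d : Fin n → ℕ, Graphical d →
    (tmix d : ℝ) ≤ p.eval (n : ℝ)) : 5 ≤ p.natDegree := by
  by_contra hdeg
  push Not at hdeg
  set A : ℝ := ∑ i ∈ Finset.range 5, |p.coeff i| with hA
  have hA0 : 0 ≤ A := Finset.sum_nonneg fun i _ => abs_nonneg _
  obtain ⟨m, hm⟩ := exists_nat_gt (Real.exp (12288 * A))
  set n : ℕ := max m 4 with hn
  have hn4 : 4 ≤ n := le_max_right _ _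
  have hnm : (m : ℝ) ≤ n := by exact_mod_cast le_max_left m 4
  have hn4r : (4 : ℝ) ≤ n := by exact_mod_cast hn4
  obtain ⟨d, hd, hlow⟩ := lower hn4
  have h1 := h n hn4 d hd
  have h2 : p.eval (n : ℝ) ≤ A * (n : ℝ) ^ 4 := by
    rw [Polynomial.eval_eq_sum_range' hdeg, hA, Finset.sum_mul]
    refine Finset.sum_le_sum fun i hi => ?_
    have hi' : i ≤ 4 := by have := Finset.mem_range.1 hi; omega
    exact mul_le_mul (le_abs_self _) (pow_le_pow_right₀ (by linarith) hi') (by positivity)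
      (abs_nonneg _)
  have h3 : (n : ℝ) ^ 4 ≤ 6144 * (n.choose 4 : ℝ) := by
    have h4 : ((n + 1 - 4 : ℕ) : ℝ) ^ 4 / (Nat.factorial 4 : ℝ) ≤ (n.choose 4 : ℝ) := by
      have h4' := Nat.pow_le_choose (α := ℝ) 4 n
      push_cast at h4' ⊢
      exact h4'
    have h5 : (n : ℝ) ≤ 4 * ((n + 1 - 4 : ℕ) : ℝ) := by
      exact_mod_cast (by omega : n ≤ 4 * (n + 1 - 4))
    have h6 : (n : ℝ) ^ 4 ≤ (4 * ((n + 1 - 4 : ℕ) : ℝ)) ^ 4 :=
      pow_le_pow_left₀ (by linarith) h5 4
    have h7 : (Nat.factorial 4 : ℝ) = 24 := by norm_num [Nat.factorial]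
    rw [h7, div_le_iff₀ (by norm_num)] at h4
    rw [mul_pow] at h6
    linarith only [h4, h6]
  have hlog : 0 < Real.log n := Real.log_pos (by linarith)
  have h8 : 12288 * A < Real.log n := by
    rw [Real.lt_log_iff_exp_lt (by linarith)]
    exact lt_of_lt_of_le hm hnm
  have h9 : (n : ℝ) ^ 4 * Real.log n ≤ 12288 * A * (n : ℝ) ^ 4 := by
    have h10 := mul_le_mul_of_nonneg_right h3 hlog.le
    linarith only [h10, h1, h2, hlow]
  have h11 : (0 : ℝ) < (n : ℝ) ^ 4 := by positivity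
  have h12 := mul_lt_mul_of_pos_left h8 h11
  linarith only [h9, h12]

end Vale.Agent.P335.H882
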