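import Vale.Agent.P335.H882.Blocks

/-!
# P335: the switch chain on the realizations of `dd n` is the lazy walk on the cube (helper882)
-/

set_option autoImplicit false

namespace Vale.Agent.P335.H882

open Finset Vale.Agent.P335 Vale.Agent.P335.H586

variable {n : ℕ}

/-- a switch keeps the degrees -/
theorem switch_deg {d : Fin n → ℕ} {G : SimpleGraph (Fin n)} (hG : HasDegrees d G)
    {a b c e : Fin n} (hab : a ≠ b) (hac : a ≠ c) (hae : a ≠ e) (hbc : b ≠ c) (hbe : b ≠ e)
    (hce : c ≠ e) (h1 : G.Adj a b) (h2 : G.Adj c e) (h3 : ¬ G.Adj a c) (h4 : ¬ G.Adj b e) :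
    HasDegrees d (SimpleGraph.fromEdgeSet
      ((G.edgeSet \ {s(a, b), s(c, e)}) ∪ {s(a, c), s(b, e)})) := by
  classical
  have p1 : ({a, b, c, e} : Finset (Fin n)) = {a, c, b, e} := by
    ext x; simp only [Finset.mem_insert, Finset.mem_singleton]; (clear * -; tauto)
  have hF := PM_pair_mem hab hac hae hbc hbe hce
  have hF' := PM_pair_mem hac hab hae hbc.symm hce hbe
  rw [← p1] at hF'
  have hmove : switchMove G {s(a, b), s(c, e)} {s(a, c), s(b, e)} =
      SimpleGraph.fromEdgeSet ((G.edgeSet \ {s(a, b), s(c, e)}) ∪ {s(a, c), s(b, e)}) := by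
    unfold switchMove
    rw [if_pos]
    · push_cast
      rfl
    · constructor
      · intro f hf
        simp only [Finset.mem_insert, Finset.mem_singleton] at hf
        rcases hf with rfl | rfl
        · exact h1
        · exact h2
      · intro f hf
        simp only [Finset.mem_insert, Finset.mem_singleton] at hf
        rcases hf with rfl | rfl
        · exact h3
        · exact h4
  rw [← hmove]
  exact switchMove_hasDegrees hG hF hF'

theorem bv_ne (j : Fin (n / 4)) {r s : Fin 4} (h : r ≠ s) : (bv j r : Fin n) ≠ bv j s :=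
  fun h1 => h (bv_inj.1 h1).2

/-- one block can be flipped by a switch -/
theorem exists_flip (G : Realization (dd n)) (j : Fin (n / 4)) :
    ∃ H : Realization (dd n), SwitchAdj G.1 H.1 ∧
      ∀ i, Ph H i = if i = j then !(Ph G j) else Ph G i := by
  obtain ⟨h03, h12, h13⟩ := block G.2 j
  by_cases h02 : G.1.Adj (bv j 0) (bv j 2)
  · have h31 : G.1.Adj (bv j 3) (bv j 1) := (h13.2 h02).symm
    have n03 : ¬ G.1.Adj (bv j 0) (bv j 3) := fun h => h03.1 h h02
    have n21 : ¬ G.1.Adj (bv j 2) (bv j 1) := fun h => h12.1 h.symm h02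
    refine ⟨⟨_, switch_deg G.2 (bv_ne j (by decide)) (bv_ne j (by decide)) (bv_ne j (by decide))
      (bv_ne j (by decide)) (bv_ne j (by decide)) (bv_ne j (by decide)) h02 h31 n03 n21⟩,
      ⟨bv j 0, bv j 2, bv j 3, bv j 1, bv_ne j (by decide), bv_ne j (by decide),
        bv_ne j (by decide), bv_ne j (by decide), bv_ne j (by decide), bv_ne j (by decide),
        h02, h31, n03, n21, rfl⟩, ?_⟩
    intro i
    by_cases hij : i = j
    · subst hij
      rw [if_pos rfl, Ph_true.2 h02]
      rw [Bool.not_true, Ph_false]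
      simp only [SimpleGraph.fromEdgeSet_adj, Set.mem_union, Set.mem_sdiff, Set.mem_insert_iff,
        Set.mem_singleton_iff, Sym2.eq_iff, bv_inj]
      simp
    · rw [if_neg hij]
      rw [Bool.eq_iff_iff, Ph_true, Ph_true]
      simp only [SimpleGraph.fromEdgeSet_adj, Set.mem_union, Set.mem_sdiff, Set.mem_insert_iff,
        Set.mem_singleton_iff, Sym2.eq_iff, bv_inj, SimpleGraph.mem_edgeSet]
      simp [hij, bv_inj]
  · have n03 : G.1.Adj (bv j 0) (bv j 3) := h03.2 h02
    have n21 : G.1.Adj (bv j 2) (bv j 1) := (h12.2 h02).symm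
    have h31 : ¬ G.1.Adj (bv j 3) (bv j 1) := fun h => h02 (h13.1 h.symm)
    refine ⟨⟨_, switch_deg G.2 (bv_ne j (by decide)) (bv_ne j (by decide)) (bv_ne j (by decide))
      (bv_ne j (by decide)) (bv_ne j (by decide)) (bv_ne j (by decide)) n03 n21 h02 h31⟩,
      ⟨bv j 0, bv j 3, bv j 2, bv j 1, bv_ne j (by decide), bv_ne j (by decide),
        bv_ne j (by decide), bv_ne j (by decide), bv_ne j (by decide), bv_ne j (by decide),
        n03, n21, h02, h31, rfl⟩, ?_⟩
    intro i
    by_cases hij : i = j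
    · subst hij
      rw [if_pos rfl, Ph_false.2 h02]
      rw [Bool.not_false, Ph_true]
      simp only [SimpleGraph.fromEdgeSet_adj, Set.mem_union, Set.mem_sdiff, Set.mem_insert_iff,
        Set.mem_singleton_iff, Sym2.eq_iff, bv_inj]
      simp [bv_inj]
    · rw [if_neg hij]
      rw [Bool.eq_iff_iff, Ph_true, Ph_true]
      simp only [SimpleGraph.fromEdgeSet_adj, Set.mem_union, Set.mem_sdiff, Set.mem_insert_iff,
        Set.mem_singleton_iff, Sym2.eq_iff, bv_inj, SimpleGraph.mem_edgeSet]
      simp [hij, bv_inj]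

/-- the flip of the block `j` -/
noncomputable def flip (G : Realization (dd n)) (j : Fin (n / 4)) : Realization (dd n) :=
  (exists_flip G j).choose

theorem flip_adj (G : Realization (dd n)) (j : Fin (n / 4)) : SwitchAdj G.1 (flip G j).1 :=
  (exists_flip G j).choose_spec.1

theorem flip_Ph (G : Realization (dd n)) (j i : Fin (n / 4)) :
    Ph (flip G j) i = if i = j then !(Ph G j) else Ph G i :=
  (exists_flip G j).choose_spec.2 i

theorem flip_ne (G : Realization (dd n)) (j : Fin (n / 4)) : G ≠ flip G j := by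
  intro h
  have h1 := flip_Ph G j j
  rw [← h, if_pos rfl] at h1
  cases hb : Ph G j <;> rw [hb] at h1 <;> simp at h1

theorem flip_inj (G : Realization (dd n)) : Function.Injective (flip G) := by
  intro i j h
  by_contra hij
  have h1 := flip_Ph G i i
  have h2 := flip_Ph G j i
  rw [h, if_pos rfl] at h1
  rw [if_neg hij] at h2
  rw [h1] at h2
  cases hb : Ph G i <;> rw [hb] at h2 <;> simp at h2

theorem mem_S {G H : SimpleGraph (Fin n)} (hne : G ≠ H) {S : Finset (Fin n)}
    {F F' : Finset (Sym2 (Fin n))} (hF : F ∈ perfectMatchings S) (hF' : F' ∈ perfectMatchings S)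
    (h : switchMove G F F' = H) {u v : Fin n} (huv : ¬ (G.Adj u v ↔ H.Adj u v)) :
    u ∈ S ∧ v ∈ S := by
  obtain ⟨e1, e2⟩ := move_edges hne hF' h
  by_cases hG : G.Adj u v
  · have h3 : s(u, v) ∈ F := (e1 _).2 ⟨hG, fun h1 => huv ⟨fun _ => h1, fun _ => hG⟩⟩
    exact ⟨(PM_mem hF h3).1, (PM_mem hF h3).2.1⟩
  · have h2 : H.Adj u v := by
      by_contra h3
      exact huv ⟨fun h => absurd h hG, fun h => absurd h h3⟩
    have h3 : s(u, v) ∈ F' := (e2 _).2 ⟨h2, hG⟩
    exact ⟨(PM_mem hF' h3).1, (PM_mem hF' h3).2.1⟩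

/-- the only moves are flips -/
theorem eq_flip {G H : Realization (dd n)} (hne : G ≠ H)
    (hQ : Qmat (dd n) G H ≠ 0) : ∃ j, H = flip G j := by
  classical
  have hne' : G.1 ≠ H.1 := fun h => hne (Subtype.ext h)
  unfold Qmat at hQ
  obtain ⟨S, hS, hSn⟩ := Finset.exists_ne_zero_of_sum_ne_zero hQ
  obtain ⟨p, hp, hpn⟩ := Finset.exists_ne_zero_of_sum_ne_zero (right_ne_zero_of_mul hSn)
  have e1 : switchMove G.1 p.1 p.2 = H.1 := by
    by_contra hc
    rw [if_neg hc, mul_zero] at hpn
    exact hpn rfl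
  rw [Finset.mem_offDiag] at hp
  have key : ∀ u v : Fin n, ¬ (G.1.Adj u v ↔ H.1.Adj u v) → u ∈ S ∧ v ∈ S :=
    fun u v h => mem_S hne' hp.1 hp.2.1 e1 h
  have hblock : ∀ j, Ph G j ≠ Ph H j → S = univ.image (bv j) := by
    intro j hj
    obtain ⟨g03, g12, g13⟩ := block G.2 j
    obtain ⟨k03, k12, k13⟩ := block H.2 j
    have h02 : ¬ (G.1.Adj (bv j 0) (bv j 2) ↔ H.1.Adj (bv j 0) (bv j 2)) := by
      rw [← Ph_true, ← Ph_true]
      intro h
      exact hj (Bool.eq_iff_iff.2 h)
    have h13 : ¬ (G.1.Adj (bv j 1) (bv j 3) ↔ H.1.Adj (bv j 1) (bv j 3)) := by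
      rw [g13, k13]; exact h02
    have a1 := key _ _ h02
    have a2 := key _ _ h13
    symm
    apply Finset.eq_of_subset_of_card_le
    · intro x hx
      obtain ⟨r, _, rfl⟩ := Finset.mem_image.1 hx
      fin_cases r
      · exact a1.1
      · exact a2.1
      · exact a1.2
      · exact a2.2
    · rw [(Finset.mem_powersetCard.1 hS).2, Finset.card_image_of_injective _
        (fun r s h => (bv_inj.1 h).2), Finset.card_univ, Fintype.card_fin]
  obtain ⟨j, hj⟩ : ∃ j, Ph G j ≠ Ph H j := by
    by_contra hc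
    push Not at hc
    exact hne (Ph_inj (funext hc))
  refine ⟨j, Ph_inj (funext fun i => ?_)⟩
  rw [flip_Ph]
  split_ifs with hij
  · subst hij
    revert hj
    cases Ph G i <;> cases Ph H i <;> simp
  · by_contra hc
    have b1 := hblock j hj
    have b2 := hblock i (fun h => hc h.symm)
    have h3 : bv i 0 ∈ univ.image (bv (n := n) j) := by
      rw [← b1, b2]; exact mem_image_of_mem _ (mem_univ _)
    obtain ⟨r, _, hr⟩ := mem_image.1 h3
    exact hij (bv_inj.1 hr).1.symm

open Classical in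
theorem P_flip (hn : 4 ≤ n) (G : Realization (dd n)) (j : Fin (n / 4)) :
    switchChain (dd n) G (flip G j) = 1 / (12 * (n.choose 4 : ℝ)) := by
  have hC : (0 : ℝ) < (n.choose 4 : ℝ) := by exact_mod_cast Nat.choose_pos hn
  refine le_antisymm ?_ (chain_ge_of_switchAdj hn _ _ _ (flip_adj G j))
  rw [switchChain_eq, if_neg (flip_ne G j)]
  have h1 := Qmat_le hn (dd n) (flip_ne G j)
  have h2 : 1 / (12 * (n.choose 4 : ℝ)) = 1 / 2 * (1 / (6 * (n.choose 4 : ℝ))) := by
    field_simp; norm_num
  rw [h2]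
  linarith only [h1]

open Classical in
/-- **one step of the chain** -/
theorem walk (hn : 4 ≤ n) (G : Realization (dd n)) (F : Realization (dd n) → ℝ) :
    ∑ H, switchChain (dd n) G H * F H =
      F G + 1 / (12 * (n.choose 4 : ℝ)) * ∑ j, (F (flip G j) - F G) := by
  have hne : Nonempty (Realization (dd n)) := ⟨G⟩
  have h1 : ∑ H, switchChain (dd n) G H * F H =
      F G + ∑ H, switchChain (dd n) G H * (F H - F G) := by
    simp_rw [mul_sub]
    rw [Finset.sum_sub_distrib, ← Finset.sum_mul, (lazy_switch hn (dd n)).P1 G]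
    ring
  rw [h1]
  congr 1
  have h2 : ∑ H ∈ univ.image (flip G), switchChain (dd n) G H * (F H - F G) =
      ∑ H, switchChain (dd n) G H * (F H - F G) := by
    apply Finset.sum_subset (Finset.subset_univ _)
    intro H _ hH
    by_cases hGH : G = H
    · rw [← hGH, sub_self, mul_zero]
    · have h3 : Qmat (dd n) G H = 0 := by
        by_contra hc
        obtain ⟨j, hj⟩ := eq_flip hGH hc
        exact hH (hj ▸ mem_image_of_mem _ (mem_univ _))
      rw [switchChain_eq, if_neg hGH, h3]
      ring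
  rw [← h2, Finset.sum_image (fun i _ j _ h => flip_inj G h), Finset.mul_sum]
  exact Finset.sum_congr rfl fun j _ => by rw [P_flip hn]

end Vale.Agent.P335.H882
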